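import Vale.Agent.P022.H119.CM.Red
import Vale.Agent.P022.H553.CM.Char
import Vale.Agent.P022.H732.TOR
import Vale.Agent.P022.H20.Gal

/-!
P022, explicit reciprocity for `K = ℚ(√-3)`: block [ATT], from the curve `y² = x³ + 16` to the
reciprocity law `Φ(Frob_𝔭) = α`, `𝔭 = (α)`, `α ≡ 1 mod 3`.
-/

open WeierstrassCurve WeierstrassCurve.Affine NumberField Polynomial

noncomputable section

namespace Vale.Agent.P022.H119.CM

open Vale.Agent.P022.CM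

/-! ### the ring `ℤ[ζ]` -/

section ring

variable {K : Type} [Field K] [NumberField K] {ζ : K}

theorem absNorm_ab (hζ : ζ ^ 2 + ζ + 1 = 0)
    (hO : ∀ α : 𝓞 K, ∃ a b : ℤ, (α : K) = a + b * ζ) (z : 𝓞 K) (hz : (z : K) = ζ) (a b : ℤ) :
    Ideal.absNorm (Ideal.span {((a : 𝓞 K) + b * z)}) = (a ^ 2 - a * b + b ^ 2).natAbs := by
  have hz2 : z ^ 2 + z + 1 = 0 := by
    apply RingOfIntegers.ext
    push_cast
    have : (z : K) ^ 2 + z + 1 = 0 := by rw [hz]; exact hζ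
    exact this
  have hind : LinearIndependent ℤ ![(1 : 𝓞 K), z] := by
    rw [LinearIndependent.pair_iff]
    intro s t h
    have h1 : (s : 𝓞 K) + t * z = 0 := by
      simpa [zsmul_eq_mul] using h
    have h2 : (s : 𝓞 K) ^ 2 - s * t + t ^ 2 = 0 := by
      linear_combination (s - t - t * z) * h1 + (t : 𝓞 K) ^ 2 * hz2
    have h3 : s ^ 2 - s * t + t ^ 2 = 0 := by exact_mod_cast h2
    have ht : t = 0 := by nlinarith [sq_nonneg (2 * s - t), sq_nonneg t]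
    subst ht
    have hs : s ^ 2 = 0 := by linarith
    exact ⟨by simpa using hs, rfl⟩
  have hspan : ⊤ ≤ Submodule.span ℤ (Set.range ![(1 : 𝓞 K), z]) := by
    intro α _
    obtain ⟨c, d, hcd⟩ := hO α
    have : α = c • (1 : 𝓞 K) + d • z := by
      apply RingOfIntegers.ext
      rw [hcd, ← hz]
      simp [zsmul_eq_mul]
    rw [this]
    refine Submodule.add_mem _ (Submodule.smul_mem _ _ (Submodule.subset_span ⟨0, rfl⟩))
      (Submodule.smul_mem _ _ (Submodule.subset_span ⟨1, rfl⟩))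
  let Bs : Module.Basis (Fin 2) ℤ (𝓞 K) := Module.Basis.mk hind hspan
  have B0 : Bs 0 = 1 := by simp [Bs]
  have B1 : Bs 1 = z := by simp [Bs]
  rw [Ideal.absNorm_span_singleton]
  congr 1
  rw [Algebra.norm_eq_matrix_det Bs, Matrix.det_fin_two]
  have e0 : ((a : 𝓞 K) + b * z) * Bs 0 = a • Bs 0 + b • Bs 1 := by
    rw [B0, B1]; simp [zsmul_eq_mul]
  have e1 : ((a : 𝓞 K) + b * z) * Bs 1 = (-b) • Bs 0 + (a - b) • Bs 1 := by
    rw [B0, B1]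
    simp only [zsmul_eq_mul]
    push_cast
    linear_combination (b : 𝓞 K) * hz2
  simp only [Algebra.leftMulMatrix_eq_repr_mul, e0, e1, map_add, map_smul,
    Module.Basis.repr_self, Finsupp.add_apply, Finsupp.smul_apply, Finsupp.single_apply,
    smul_eq_mul]
  simp
  ring

/-- the residue field at a prime above `ℓ` -/
theorem resid {𝔭 : Ideal (𝓞 K)} (h𝔭 : 𝔭.IsPrime) {ℓ : ℕ} (hℓ : ℓ.Prime)
    (hm : (ℓ : 𝓞 K) ∈ 𝔭) : (∃ f : ℕ, 0 < f ∧ Ideal.absNorm 𝔭 = ℓ ^ f) ∧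
      ∀ x : 𝓞 K, x ^ Ideal.absNorm 𝔭 - x ∈ 𝔭 := by
  have hne : 𝔭 ≠ ⊥ := by
    rintro rfl
    rw [Ideal.mem_bot] at hm
    have : (ℓ : ℕ) = 0 := by exact_mod_cast hm
    exact hℓ.ne_zero this
  have hmax : 𝔭.IsMaximal := h𝔭.isMaximal hne
  let _ : Field (𝓞 K ⧸ 𝔭) := Ideal.Quotient.field 𝔭
  have : Finite (𝓞 K ⧸ 𝔭) := Ideal.finiteQuotientOfFreeOfNeBot 𝔭 hne
  let _ : Fintype (𝓞 K ⧸ 𝔭) := Fintype.ofFinite _
  have hc : Ideal.absNorm 𝔭 = Fintype.card (𝓞 K ⧸ 𝔭) := by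
    rw [Ideal.absNorm_apply, Submodule.cardQuot_apply, Nat.card_eq_fintype_card]
  have h0 : ((ℓ : ℕ) : 𝓞 K ⧸ 𝔭) = 0 := by
    have := (Ideal.Quotient.eq_zero_iff_mem (I := 𝔭)).2 hm
    simpa using this
  have : Fact ℓ.Prime := ⟨hℓ⟩
  have : CharP (𝓞 K ⧸ 𝔭) ℓ := (CharP.charP_iff_prime_eq_zero hℓ).2 h0
  constructor
  · obtain ⟨n, _, hn⟩ := FiniteField.card (𝓞 K ⧸ 𝔭) ℓ
    exact ⟨n, n.pos, by rw [hc, hn]⟩
  · intro x
    rw [← Ideal.Quotient.eq_zero_iff_mem, map_sub, map_pow, hc, FiniteField.pow_card, sub_self]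

end ring

/-! ### the point `(-4, 4 √-3)` of order `3` -/

section three

variable {F : Type} [Field F] [DecidableEq F]

theorem three_tors {B : F} (hB : B = 16) (h6 : (6 : F) * B ≠ 0) (w : F)
    (hw : w ^ 2 + w + 1 = 0) (a b : ℤ) (T : Pt B)
    (hT : ∀ h, T = .some (-4) (4 * (1 + 2 * w)) h) (h : en h6 w hw a b T = 0) :
    (3 : ℤ) ∣ a ∧ (3 : ℤ) ∣ b := by
  subst hB
  have h2 : (2 : F) ≠ 0 := by
    intro h2; apply h6; linear_combination 48 * h2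
  have h4 : (4 : F) ≠ 0 := by
    intro h4; apply h6; linear_combination 24 * h4
  have h3 : (3 : F) ≠ 0 := by
    intro h3; apply h6; linear_combination 32 * h3
  have hw1 : w ≠ 1 := by
    rintro rfl; apply h3; linear_combination hw
  have nT : (Wc (16 : F)).Nonsingular (-4) (4 * (1 + 2 * w)) := nons h6 (by
    linear_combination 64 * hw)
  have nS : (Wc (16 : F)).Nonsingular 0 4 := nons h6 (by norm_num)
  have nS' : (Wc (16 : F)).Nonsingular 0 (-4) := nons h6 (by norm_num)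
  have nwS : (Wc (16 : F)).Nonsingular (w * 0) 4 := nons h6 (by norm_num)
  have nwT : (Wc (16 : F)).Nonsingular (w * -4) (4 * (1 + 2 * w)) := nons h6 (by
    linear_combination (64 + 64 * (w - 1)) * hw)
  rw [hT nT] at h
  set S : Pt (16 : F) := .some 0 4 nS with hS
  have hS2 : S + S = -S := by
    rw [hS, add_tan (s := 0) nS (mul_ne_zero h2 h4) (by ring) nS' (by ring) (by ring), neg_some']
  have hS3 : (3 : ℕ) • S = 0 := by
    have : (3 : ℕ) • S = (S + S) + S := by module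
    rw [this, hS2, neg_add_cancel]
  have hS0 : S ≠ 0 := Point.some_ne_zero nS
  have hord : addOrderOf S = 3 := by
    have : Fact (Nat.Prime 3) := ⟨Nat.prime_three⟩
    exact addOrderOf_eq_prime hS3 hS0
  have hdiv : ∀ n : ℤ, n • S = 0 → (3 : ℤ) ∣ n := by
    intro n hn
    have := (addOrderOf_dvd_iff_zsmul_eq_zero (x := S) (i := n)).2 hn
    rw [hord] at this
    exact_mod_cast this
  have homS : om h6 w hw S = S := by
    rw [hS, om_some h6 w hw nS nwS, Point.some.injEq]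
    exact ⟨by ring, rfl⟩
  set T' : Pt (16 : F) := .some (-4) (4 * (1 + 2 * w)) nT with hT'
  -- `ω T = T + S`
  have homT : om h6 w hw T' = T' + S := by
    rw [hT', om_some h6 w hw nT nwT]
    symm
    exact add_chord (s := -2 * w) nT nS (neg_ne_zero.2 h4) (by ring) nwT
      (by linear_combination (-4) * hw) (by linear_combination 8 * hw)
  have hT3 : (3 : ℤ) • T' = 0 := by
    have h1 := om_rel h6 w hw T'
    rw [homT, map_add, homT, homS] at h1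
    have h2 : (3 : ℤ) • T' = (T' + S + S + (T' + S) + T') - (3 : ℕ) • S := by module
    rw [h2, h1, hS3, sub_zero]
  rw [en_apply, homT] at h
  have h' : (a + b) • T' + b • S = 0 := by
    rw [← h]; module
  have h'' := congrArg (om h6 w hw) h'
  rw [map_add, map_zsmul, map_zsmul, homT, homS, map_zero] at h''
  have hab : (3 : ℤ) ∣ a + b := by
    refine hdiv _ ?_
    have : (a + b) • S = ((a + b) • (T' + S) + b • S) - ((a + b) • T' + b • S) := by module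
    rw [this, h', h'', sub_zero]
  obtain ⟨k, hk⟩ := hab
  have hb : (3 : ℤ) ∣ b := by
    refine hdiv _ ?_
    rw [hk, mul_comm, mul_smul, hT3, smul_zero, zero_add] at h'
    exact h'
  exact ⟨by omega, hb⟩

end three


/-! ### the reciprocity law -/

section red

variable [DecidableEq Qb] {F : Type} [Field F] [DecidableEq F] (π : 𝓞 Qb →+* F) (b : ℤ)
  (h6 : (6 : Qb) * (b : Qb) ≠ 0) (h6F : (6 : F) * (b : F) ≠ 0) (R : Pt (b : Qb) → Pt (b : F))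
  (hR0 : R 0 = 0)
  (hRs : ∀ (x y : 𝓞 Qb) (h : (Wc (b : Qb)).Nonsingular (x : Qb) (y : Qb))
    (h' : (Wc (b : F)).Nonsingular (π x) (π y)),
      R (Point.some (x : Qb) (y : Qb) h) = Point.some (π x) (π y) h')

include hR0 hRs in
theorem gact_red (σ : F →+* F) (hB : σ (b : F) = b) (g : GQ)
    (hg : ∀ x : 𝓞 Qb, π (g • x) = σ (π x)) (n : ℕ) (Q : Pt (b : Qb)) (hQ : (2 ^ n : ℕ) • Q = 0) :
    R (gact b h6 g Q) = mp σ hB h6F (R Q) := by
  rcases Q with _ | ⟨x, y, h⟩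
  · have h0 : (Point.zero : Pt (b : Qb)) = 0 := rfl
    rw [h0, map_zero, hR0, map_zero]
  · obtain ⟨hx, hy⟩ := int_tors b h6 n x y h hQ
    obtain ⟨x', rfl⟩ : ∃ x' : 𝓞 Qb, (x' : Qb) = x := ⟨⟨x, hx⟩, rfl⟩
    obtain ⟨y', rfl⟩ : ∃ y' : 𝓞 Qb, (y' : Qb) = y := ⟨⟨y, hy⟩, rfl⟩
    have hN := H553.CM.nsg b h6 g h
    have e := eqn.1 h.1
    have n1 := nons_red π b h6F e
    have e2 : ((g • y' : 𝓞 Qb) : Qb) ^ 2 = ((g • x' : 𝓞 Qb) : Qb) ^ 3 + b := eqn.1 hN.1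
    have n2 := nons_red π b h6F e2
    have n3 : (Wc (b : F)).Nonsingular (σ (π x')) (σ (π y')) := by
      rw [← hg, ← hg]; exact n2
    rw [H553.CM.gact_some b h6 g h, hRs x' y' h n1, mp_some σ hB h6F n1 n3]
    have h4 := hRs (g • x') (g • y') hN n2
    refine h4.trans ?_
    rw [Point.some.injEq]
    exact ⟨hg x', hg y'⟩

include hR0 hRs in
theorem om_red (z : 𝓞 Qb) (hw : (z : Qb) ^ 2 + (z : Qb) + 1 = 0) (hwF : (π z) ^ 2 + π z + 1 = 0)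
    (n : ℕ) (Q : Pt (b : Qb)) (hQ : (2 ^ n : ℕ) • Q = 0) :
    R (om h6 (z : Qb) hw Q) = om h6F (π z) hwF (R Q) := by
  rcases Q with _ | ⟨x, y, h⟩
  · have h0 : (Point.zero : Pt (b : Qb)) = 0 := rfl
    rw [h0, map_zero, hR0, map_zero]
  · obtain ⟨hx, hy⟩ := int_tors b h6 n x y h hQ
    obtain ⟨x', rfl⟩ : ∃ x' : 𝓞 Qb, (x' : Qb) = x := ⟨⟨x, hx⟩, rfl⟩
    obtain ⟨y', rfl⟩ : ∃ y' : 𝓞 Qb, (y' : Qb) = y := ⟨⟨y, hy⟩, rfl⟩
    have e := eqn.1 h.1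
    have n1 := nons_red π b h6F e
    have h' : (Wc (b : Qb)).Nonsingular ((z : Qb) * (x' : Qb)) (y' : Qb) := nons h6 (by
      linear_combination e - (x' : Qb) ^ 3 * (w3 hw))
    have e2 : (y' : Qb) ^ 2 = ((z * x' : 𝓞 Qb) : Qb) ^ 3 + b := by
      have : ((z * x' : 𝓞 Qb) : Qb) = (z : Qb) * x' := map_mul _ _ _
      rw [this]
      exact eqn.1 h'.1
    have n2 := nons_red π b h6F e2
    have n3 : (Wc (b : F)).Nonsingular (π z * π x') (π y') := by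
      rw [← map_mul]; exact n2
    rw [om_some h6 _ hw h h', hRs x' y' h n1, om_some h6F _ hwF n1 n3]
    have h4 := hRs (z * x') y' (nons h6 e2) n2
    have h5 : (Point.some ((z : Qb) * (x' : Qb)) (y' : Qb) h' : Pt (b : Qb)) =
        Point.some ((z * x' : 𝓞 Qb) : Qb) (y' : Qb) (nons h6 e2) := by
      rw [Point.some.injEq]
      exact ⟨(map_mul _ _ _).symm, rfl⟩
    rw [h5, h4, Point.some.injEq]
    exact ⟨map_mul _ _ _, rfl⟩

omit [DecidableEq F] in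
theorem tors_om {n : ℕ} {w : Qb} (hw : w ^ 2 + w + 1 = 0) {Q : Pt (b : Qb)}
    (hQ : (2 ^ n : ℕ) • Q = 0) : (2 ^ n : ℕ) • (om h6 w hw Q) = 0 := by
  rw [← map_nsmul, hQ, map_zero]

omit [DecidableEq Qb] [DecidableEq F] in
theorem tors_zsmul [DecidableEq Qb] {n : ℕ} (k : ℤ) {Q : Pt (b : Qb)}
    (hQ : (2 ^ n : ℕ) • Q = 0) : (2 ^ n : ℕ) • (k • Q) = 0 := by
  rw [smul_comm, hQ, smul_zero]

variable (hRa : ∀ (n : ℕ) (P Q : Pt (b : Qb)), (2 ^ n : ℕ) • P = 0 → (2 ^ n : ℕ) • Q = 0 →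
      R (P + Q) = R P + R Q)

include hRa in
theorem zsmul_red (n : ℕ) (Q : Pt (b : Qb)) (hQ : (2 ^ n : ℕ) • Q = 0) (k : ℤ) :
    R (k • Q) = k • R Q := by
  let f : ℤ →+ Pt (b : F) := AddMonoidHom.mk' (fun k : ℤ => R (k • Q)) (by
    intro k l
    rw [add_smul]
    exact hRa n _ _ (tors_zsmul b k hQ) (tors_zsmul b l hQ))
  have h1 : f (k • 1) = k • f 1 := map_zsmul f k 1
  have h2 : f (k • 1) = R (k • Q) := by simp [f]
  have h3 : f 1 = R Q := by simp [f]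
  rw [← h2, h1, h3]

include hR0 hRs hRa in
theorem en_red (z : 𝓞 Qb) (hw : (z : Qb) ^ 2 + (z : Qb) + 1 = 0) (hwF : (π z) ^ 2 + π z + 1 = 0)
    (n : ℕ) (Q : Pt (b : Qb)) (hQ : (2 ^ n : ℕ) • Q = 0) (k l : ℤ) :
    R (en h6 (z : Qb) hw k l Q) = en h6F (π z) hwF k l (R Q) := by
  rw [en_apply, en_apply, hRa n _ _ (tors_zsmul b k hQ) (tors_zsmul b l (tors_om b h6 hw hQ)),
    zsmul_red b R hRa n _ hQ, zsmul_red b R hRa n _ (tors_om b h6 hw hQ),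
    om_red π b h6 h6F R hR0 hRs z hw hwF n Q hQ]

end red

theorem phi_eq [DecidableEq Qb] {K : Type} [Field K] [NumberField K] {ζ : K}
    (hζ : ζ ^ 2 + ζ + 1 = 0)
    {E : Type} [NontriviallyNormedField E] [NormedAlgebra ℚ_[2] E] [IsUltrametricDist E]
    (ι : K →+* E) (b : ℤ) (h6 : (6 : Qb) * (b : Qb) ≠ 0) (w : Qb) (hw : w ^ 2 + w + 1 = 0)
    (g : GQ) (φ : E)
    (hΦ : ∀ n : ℕ, ∃ x y : ℤ, ‖φ - ι (x + y * ζ)‖ ≤ ‖(2 : E)‖ ^ n ∧
      ∀ Q : Pt (b : Qb), (2 ^ n : ℕ) • Q = 0 → gact b h6 g Q = en h6 w hw x y Q) (k l : ℤ)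
    (h : ∀ (n : ℕ) (Q : Pt (b : Qb)), (2 ^ n : ℕ) • Q = 0 →
      gact b h6 g Q = en h6 w hw k l Q) : φ = ι (k + l * ζ) := by
  obtain ⟨P, hP0, hP, -, hker⟩ := H732.TOR Qb (b : Qb) h6 w hw
  have htor : ∀ n, (2 ^ n : ℕ) • P n = 0 := by
    intro n
    induction n with
    | zero => simp [hP0]
    | succ n ih => rw [pow_succ, mul_smul, hP, ih]
  rw [← sub_eq_zero]
  refine H553.CM.zero_of fun n => ?_
  obtain ⟨x, y, h1, h2⟩ := hΦ n
  have h3 : en h6 w hw (x - k) (y - l) (P n) = 0 := by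
    rw [H553.CM.en_sub, ← h2 _ (htor n), ← h n _ (htor n), sub_self]
  obtain ⟨h4, h5⟩ := hker n _ _ h3
  have h6' := H553.CM.norm_dvd hζ ι h4 h5
  have e : φ - ι (k + l * ζ) = (φ - ι (x + y * ζ)) + ι (((x - k : ℤ) : K) + ((y - l : ℤ) : K) * ζ) := by
    rw [sub_add, ← map_sub]
    congr 2
    push_cast
    ring
  rw [e]
  exact (IsUltrametricDist.norm_add_le_max _ _).trans (max_le h1 h6')

/-- an algebraically closed residue field -/
theorem exists_res (P : Ideal (𝓞 Qb)) (hP : P.IsPrime) : ∃ (F : Type) (_ : Field F)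
    (_ : IsAlgClosed F) (π : 𝓞 Qb →+* F), ∀ x, π x = 0 ↔ x ∈ P := by
  refine ⟨AlgebraicClosure (FractionRing (𝓞 Qb ⧸ P)), inferInstance, inferInstance,
    (algebraMap (FractionRing (𝓞 Qb ⧸ P)) _).comp
      ((algebraMap (𝓞 Qb ⧸ P) (FractionRing (𝓞 Qb ⧸ P))).comp (Ideal.Quotient.mk P)), fun x => ?_⟩
  rw [RingHom.comp_apply, RingHom.comp_apply, map_eq_zero_iff _ (RingHom.injective _),
    map_eq_zero_iff _ (IsFractionRing.injective (𝓞 Qb ⧸ P) (FractionRing (𝓞 Qb ⧸ P))),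
    Ideal.Quotient.eq_zero_iff_mem]

theorem mp_id {F : Type} [Field F] [DecidableEq F] {B : F} (hB : RingHom.id F B = B)
    (h6 : (6 : F) * B ≠ 0) (P : Pt B) : mp (RingHom.id F) hB h6 P = P := by
  rcases P with _ | ⟨x, y, h⟩
  · rfl
  · exact mp_some (RingHom.id F) hB h6 h h

/-- **explicit reciprocity for `ℚ(√-3)`**, from the Frobenius block, for every character `Φ` which
describes the action on the `2^∞`-torsion of `y² = x³ + 16` -/
theorem attC (hF : FROBStmt) [DecidableEq Qb] (K : Type) [Field K] [NumberField K] (ζ : K)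
    (hζ : ζ ^ 2 + ζ + 1 = 0) (hO : ∀ α : 𝓞 K, ∃ a b : ℤ, (α : K) = a + b * ζ)
    (E : Type) [NontriviallyNormedField E] [NormedAlgebra ℚ_[2] E] [IsUltrametricDist E]
    (ι : K →+* E) (j : K →+* Qb) (h6 : (6 : Qb) * ((16 : ℤ) : Qb) ≠ 0)
    (hw : (j ζ) ^ 2 + j ζ + 1 = 0) (Φ : GK j →* Eˣ)
    (hΦ : ∀ (g : GK j) (n : ℕ), ∃ x y : ℤ, ‖(Φ g : E) - ι (x + y * ζ)‖ ≤ ‖(2 : E)‖ ^ n ∧
      ∀ Q : Pt ((16 : ℤ) : Qb), (2 ^ n : ℕ) • Q = 0 → gact 16 h6 g Q = en h6 (j ζ) hw x y Q) :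
    ∀ ℓ : ℕ, ℓ.Prime → ¬ ℓ ∣ 6 → ∀ P : Ideal (𝓞 Qb), P.IsPrime → (ℓ : 𝓞 Qb) ∈ P →
      ∀ g : GK j, ((∀ x : 𝓞 Qb, (g : GQ) • x - x ∈ P) → Φ g = 1) ∧
      ((∀ x : 𝓞 Qb, (g : GQ) • x - x ^ Ideal.absNorm (below j P) ∈ P) →
        ∃ α : 𝓞 K, (3 : 𝓞 K) ∣ α - 1 ∧ below j P = Ideal.span {α} ∧ (Φ g : E) = ι α) := by
  intro ℓ hℓ hℓ6 P hP hℓP g
  obtain ⟨F, _, _, π, hπ⟩ := exists_res P hP
  classical
  have hℓF : (ℓ : F) = 0 := by rw [← map_natCast π, hπ]; exact hℓP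
  have hfact : Fact ℓ.Prime := ⟨hℓ⟩
  have hchar : CharP F ℓ := (CharP.charP_iff_prime_eq_zero hℓ).2 hℓF
  have h6F : (6 : F) * ((16 : ℤ) : F) ≠ 0 := by
    intro h
    have h1 : ((96 : ℕ) : F) = 0 := by
      rw [← h]; norm_num
    rw [CharP.cast_eq_zero_iff F ℓ] at h1
    apply hℓ6
    rw [show (96 : ℕ) = 6 * 2 ^ 4 by norm_num] at h1
    rcases (Nat.Prime.dvd_mul hℓ).1 h1 with h2 | h2
    · exact h2
    · exact (hℓ.dvd_of_dvd_pow h2).trans ⟨3, by norm_num⟩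
  obtain ⟨-, R, hR0, hRs, hRa, hRi⟩ := RED Qb F π 16 h6 h6F
  have hζi : IsIntegral ℤ ζ := by
    refine ⟨X ^ 2 + (X + C 1), monic_X_pow_add (n := 2) ?_, ?_⟩
    · refine lt_of_le_of_lt (b := (1 : WithBot ℕ)) ?_ (by norm_num)
      compute_degree
    · simp only [eval₂_add, eval₂_pow, eval₂_X, eval₂_one, map_one]
      linear_combination hζ
  obtain ⟨zK, hzK⟩ : ∃ zK : 𝓞 K, (zK : K) = ζ := ⟨⟨ζ, hζi⟩, rfl⟩
  obtain ⟨z, hz⟩ : ∃ z : 𝓞 Qb, z = RingOfIntegers.mapRingHom j zK := ⟨_, rfl⟩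
  have hzj : (z : Qb) = j ζ := by rw [hz, ← hzK]; rfl
  have hz2 : z ^ 2 + z + 1 = 0 := by
    apply RingOfIntegers.ext
    push_cast
    have : (z : Qb) ^ 2 + z + 1 = 0 := by rw [hzj]; exact hw
    exact this
  have hwF : (π z) ^ 2 + π z + 1 = 0 := by
    rw [← map_pow, ← map_add, ← map_one π, ← map_add, hz2, map_zero]
  have hwz : (z : Qb) ^ 2 + (z : Qb) + 1 = 0 := by rw [hzj]; exact hw
  have hgt : ∀ (n : ℕ) (Q : Pt ((16 : ℤ) : Qb)), (2 ^ n : ℕ) • Q = 0 →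
      (2 ^ n : ℕ) • gact 16 h6 (g : GQ) Q = 0 := by
    intro n Q hQ
    rw [← map_nsmul, hQ, map_zero]
  constructor
  · -- inertia
    intro hg
    have hg' : ∀ x : 𝓞 Qb, π ((g : GQ) • x) = RingHom.id F (π x) := by
      intro x
      have := (hπ _).2 (hg x)
      rw [map_sub, sub_eq_zero] at this
      exact this
    have key : ∀ (n : ℕ) (Q : Pt ((16 : ℤ) : Qb)), (2 ^ n : ℕ) • Q = 0 →
        gact 16 h6 (g : GQ) Q = en h6 (j ζ) hw 1 0 Q := by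
      intro n Q hQ
      rw [H553.CM.en_one]
      refine hRi n _ _ (hgt n Q hQ) hQ ?_
      rw [gact_red π 16 h6 h6F R hR0 hRs (RingHom.id F) rfl g hg' n Q hQ, mp_id]
    have h1 := phi_eq hζ ι 16 h6 (j ζ) hw g (Φ g) (hΦ g) 1 0 key
    apply Units.ext
    rw [h1]
    simp
  · -- Frobenius
    intro hg
    have h𝔭 : (below j P).IsPrime := Ideal.comap_isPrime _ _
    have hℓ𝔭 : (ℓ : 𝓞 K) ∈ below j P := by
      show RingOfIntegers.mapRingHom j (ℓ : 𝓞 K) ∈ P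
      rw [map_natCast]; exact hℓP
    obtain ⟨⟨f, hf, hq⟩, hres⟩ := resid h𝔭 hℓ hℓ𝔭
    obtain ⟨q, hqd⟩ : ∃ q, q = Ideal.absNorm (below j P) := ⟨_, rfl⟩
    rw [← hqd] at hg hq hres
    have hq2 : 2 ≤ q := by
      rw [hq]
      exact hℓ.two_le.trans (Nat.le_self_pow hf.ne' ℓ)
    let σ : F →+* F := iterateFrobenius F ℓ f
    have hσ : ∀ x, σ x = x ^ q := by
      intro x
      rw [hq]
      exact iterateFrobenius_def ℓ f x
    have hσK : ∀ x : 𝓞 K, σ (π (RingOfIntegers.mapRingHom j x)) =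
        π (RingOfIntegers.mapRingHom j x) := by
      intro x
      rw [hσ, ← map_pow, ← map_pow, ← sub_eq_zero, ← map_sub, ← map_sub, hπ]
      exact hres x
    have hσz : σ (π z) = π z := by rw [hz]; exact hσK zK
    have hσB : σ ((16 : ℤ) : F) = ((16 : ℤ) : F) := map_intCast σ 16
    obtain ⟨a, c, hac, hac0, hFr⟩ := hF F ((16 : ℤ) : F) h6F (π z) hwF σ q hq2 hσ hσz hσB
    have hg' : ∀ x : 𝓞 Qb, π ((g : GQ) • x) = σ (π x) := by
      intro x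
      rw [hσ, ← map_pow, ← sub_eq_zero, ← map_sub, hπ]
      exact hg x
    have key : ∀ (n : ℕ) (Q : Pt ((16 : ℤ) : Qb)), (2 ^ n : ℕ) • Q = 0 →
        gact 16 h6 (g : GQ) Q = en h6 (z : Qb) hwz a c Q := by
      intro n Q hQ
      refine hRi n _ _ (hgt n Q hQ) ?_ ?_
      · rw [← map_nsmul, hQ, map_zero]
      · rw [gact_red π 16 h6 h6F R hR0 hRs σ hσB g hg' n Q hQ, hFr,
          en_red π 16 h6 h6F R hR0 hRs hRa z hwz hwF n Q hQ]
    have key' : ∀ (n : ℕ) (Q : Pt ((16 : ℤ) : Qb)), (2 ^ n : ℕ) • Q = 0 →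
        gact 16 h6 (g : GQ) Q = en h6 (j ζ) hw a c Q := by
      intro n Q hQ
      rw [key n Q hQ]
      congr 2
    have h1 := phi_eq hζ ι 16 h6 (j ζ) hw g (Φ g) (hΦ g) a c key'
    refine ⟨(a : 𝓞 K) + c * zK, ?_, ?_, ?_⟩
    · -- congruence modulo 3
      have nT : (Wc ((16 : ℤ) : F)).Nonsingular (-4) (4 * (1 + 2 * π z)) := nons h6F (by
        push_cast
        linear_combination 64 * hwF)
      have hT0 : mp σ hσB h6F (.some (-4) (4 * (1 + 2 * π z)) nT) =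
          .some (-4) (4 * (1 + 2 * π z)) nT := by
        have e1 : σ (-4 : F) = -4 := by rw [map_neg, map_ofNat]
        have e2 : σ (4 * (1 + 2 * π z) : F) = 4 * (1 + 2 * π z) := by
          rw [map_mul, map_add, map_mul, map_ofNat, map_ofNat, map_one, hσz]
        have n' : (Wc ((16 : ℤ) : F)).Nonsingular (σ (-4)) (σ (4 * (1 + 2 * π z))) := by
          rw [e1, e2]; exact nT
        rw [mp_some σ hσB h6F nT n', Point.some.injEq]
        exact ⟨e1, e2⟩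
      rw [hFr] at hT0
      have h2 : en h6F (π z) hwF (a - 1) (c - 0) (.some (-4) (4 * (1 + 2 * π z)) nT) = 0 := by
        rw [H553.CM.en_sub, H553.CM.en_one, hT0, sub_self]
      obtain ⟨⟨u, hu⟩, ⟨v, hv⟩⟩ := three_tors (by norm_num) h6F (π z) hwF (a - 1) (c - 0) _
        (fun _ => rfl) h2
      have hu' : a = 1 + 3 * u := by omega
      have hv' : c = 3 * v := by omega
      refine ⟨(u : 𝓞 K) + v * zK, ?_⟩
      rw [hu', hv']
      push_cast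
      ring
    · -- the ideal
      symm
      apply H20.eq_of_le_of_absNorm
      · rw [Ideal.span_singleton_le_iff_mem]
        show RingOfIntegers.mapRingHom j ((a : 𝓞 K) + c * zK) ∈ P
        rw [← hπ, map_add, map_mul, map_intCast, map_intCast, ← hz, map_add, map_mul,
          map_intCast, map_intCast]
        exact hac0
      · rw [Ne, Ideal.span_singleton_eq_bot]
        intro h0
        have h3 := absNorm_ab hζ hO zK hzK a c
        rw [h0, Ideal.span_singleton_eq_bot.2 rfl, Ideal.absNorm_bot, hac] at h3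
        simp at h3
        omega
      · rw [absNorm_ab hζ hO zK hzK a c, hac, ← hqd]
        simp
    · rw [h1]
      congr 1
      rw [← hzK]
      push_cast
      rfl

/-- **explicit reciprocity for `ℚ(√-3)`**, with the action on the torsion points -/
theorem attX (hF : FROBStmt) [DecidableEq Qb] (K : Type) [Field K] [NumberField K] (ζ : K)
    (hζ : ζ ^ 2 + ζ + 1 = 0) (hO : ∀ α : 𝓞 K, ∃ a b : ℤ, (α : K) = a + b * ζ)
    (E : Type) [NontriviallyNormedField E] [NormedAlgebra ℚ_[2] E] [IsUltrametricDist E]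
    [FiniteDimensional ℚ_[2] E] (ι : K →+* E) (j : K →+* Qb)
    (h6 : (6 : Qb) * ((16 : ℤ) : Qb) ≠ 0) (hw : (j ζ) ^ 2 + j ζ + 1 = 0) :
    ∃ Φ : GK j →* Eˣ, Continuous Φ ∧
      (∀ (g : GK j) (n : ℕ), ∃ x y : ℤ, ‖(Φ g : E) - ι (x + y * ζ)‖ ≤ ‖(2 : E)‖ ^ n ∧
        ∀ Q : Pt ((16 : ℤ) : Qb), (2 ^ n : ℕ) • Q = 0 →
          gact 16 h6 g Q = en h6 (j ζ) hw x y Q) ∧
      ∀ ℓ : ℕ, ℓ.Prime → ¬ ℓ ∣ 6 → ∀ P : Ideal (𝓞 Qb), P.IsPrime → (ℓ : 𝓞 Qb) ∈ P →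
        ∀ g : GK j, ((∀ x : 𝓞 Qb, (g : GQ) • x - x ∈ P) → Φ g = 1) ∧
        ((∀ x : 𝓞 Qb, (g : GQ) • x - x ^ Ideal.absNorm (below j P) ∈ P) →
          ∃ α : 𝓞 K, (3 : 𝓞 K) ∣ α - 1 ∧ below j P = Ideal.span {α} ∧ (Φ g : E) = ι α) := by
  obtain ⟨Φ, hΦc, hΦ⟩ := H553.CM.CHAR H732.TOR K ζ hζ hO E ι j 16 h6 hw
  exact ⟨Φ, hΦc, hΦ, attC hF K ζ hζ hO E ι j h6 hw Φ hΦ⟩

/-- **explicit reciprocity for `ℚ(√-3)`**, from the Frobenius block -/
theorem att (hF : FROBStmt) [DecidableEq Qb] (K : Type) [Field K] [NumberField K] (ζ : K)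
    (hζ : ζ ^ 2 + ζ + 1 = 0) (hO : ∀ α : 𝓞 K, ∃ a b : ℤ, (α : K) = a + b * ζ)
    (E : Type) [NontriviallyNormedField E] [NormedAlgebra ℚ_[2] E] [IsUltrametricDist E]
    [FiniteDimensional ℚ_[2] E] (ι : K →+* E) (j : K →+* Qb) :
    ∃ Φ : GK j →* Eˣ, Continuous Φ ∧
      (∀ (g : GK j) (n : ℕ), ∃ x y : ℤ, ‖(Φ g : E) - ι (x + y * ζ)‖ ≤ ‖(2 : E)‖ ^ n) ∧
      ∀ ℓ : ℕ, ℓ.Prime → ¬ ℓ ∣ 6 → ∀ P : Ideal (𝓞 Qb), P.IsPrime → (ℓ : 𝓞 Qb) ∈ P →
        ∀ g : GK j, ((∀ x : 𝓞 Qb, (g : GQ) • x - x ∈ P) → Φ g = 1) ∧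
        ((∀ x : 𝓞 Qb, (g : GQ) • x - x ^ Ideal.absNorm (below j P) ∈ P) →
          ∃ α : 𝓞 K, (3 : 𝓞 K) ∣ α - 1 ∧ below j P = Ideal.span {α} ∧ (Φ g : E) = ι α) := by
  have h6 : (6 : Qb) * ((16 : ℤ) : Qb) ≠ 0 := by norm_num
  have hw : (j ζ) ^ 2 + j ζ + 1 = 0 := by
    rw [← map_pow, ← map_add, ← map_one j, ← map_add, hζ, map_zero]
  obtain ⟨Φ, hΦc, hΦ, h⟩ := attX hF K ζ hζ hO E ι j h6 hw
  refine ⟨Φ, hΦc, fun g n => ?_, h⟩
  obtain ⟨x, y, h, -⟩ := hΦ g n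
  exact ⟨x, y, h⟩

end Vale.Agent.P022.H119.CM
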