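import Vale.Agent.P022.H119.CM.Att
import Vale.Agent.P022.H420.CM6

/-!
P022, explicit reciprocity for `K = ℚ(√-3)`, unconditional.
-/

open NumberField

noncomputable section

namespace Vale.Agent.P022.H119.CM

open Vale.Agent.P022.CM

/-- **explicit reciprocity for `ℚ(√-3)`**: a continuous character `Φ` of `G_K` with values in the
`2`-adic completion of `ℤ[ζ]`, unramified outside `6`, `Φ(Frob_𝔭) = α`, `𝔭 = (α)`, `α ≡ 1 mod 3` -/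
theorem att' (K : Type) [Field K] [NumberField K] (ζ : K)
    (hζ : ζ ^ 2 + ζ + 1 = 0) (hO : ∀ α : 𝓞 K, ∃ a b : ℤ, (α : K) = a + b * ζ)
    (E : Type) [NontriviallyNormedField E] [NormedAlgebra ℚ_[2] E] [IsUltrametricDist E]
    [FiniteDimensional ℚ_[2] E] (ι : K →+* E) (j : K →+* Qb) :
    ∃ Φ : GK j →* Eˣ, Continuous Φ ∧
      (∀ (g : GK j) (n : ℕ), ∃ x y : ℤ, ‖(Φ g : E) - ι (x + y * ζ)‖ ≤ ‖(2 : E)‖ ^ n) ∧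
      ∀ ℓ : ℕ, ℓ.Prime → ¬ ℓ ∣ 6 → ∀ P : Ideal (𝓞 Qb), P.IsPrime → (ℓ : 𝓞 Qb) ∈ P →
        ∀ g : GK j, ((∀ x : 𝓞 Qb, (g : GQ) • x - x ∈ P) → Φ g = 1) ∧
        ((∀ x : 𝓞 Qb, (g : GQ) • x - x ^ Ideal.absNorm (below j P) ∈ P) →
          ∃ α : 𝓞 K, (3 : 𝓞 K) ∣ α - 1 ∧ below j P = Ideal.span {α} ∧ (Φ g : E) = ι α) := by
  classical
  exact att (FROB H732.TOR) K ζ hζ hO E ι j

/-- the same, with the action on the torsion points kept -/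
theorem attX' [DecidableEq Qb] (K : Type) [Field K] [NumberField K] (ζ : K)
    (hζ : ζ ^ 2 + ζ + 1 = 0) (hO : ∀ α : 𝓞 K, ∃ a b : ℤ, (α : K) = a + b * ζ)
    (E : Type) [NontriviallyNormedField E] [NormedAlgebra ℚ_[2] E] [IsUltrametricDist E]
    [FiniteDimensional ℚ_[2] E] (ι : K →+* E) (j : K →+* Qb)
    (h6 : (6 : Qb) * ((16 : ℤ) : Qb) ≠ 0) (hw : (j ζ) ^ 2 + j ζ + 1 = 0) :
    ∃ Φ : GK j →* Eˣ, Continuous Φ ∧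
      (∀ (g : GK j) (n : ℕ), ∃ x y : ℤ, ‖(Φ g : E) - ι (x + y * ζ)‖ ≤ ‖(2 : E)‖ ^ n ∧
        ∀ Q : Pt ((16 : ℤ) : Qb), (2 ^ n : ℕ) • Q = 0 →
          gact 16 h6 g Q = en h6 (j ζ) hw x y Q) ∧
      ∀ ℓ : ℕ, ℓ.Prime → ¬ ℓ ∣ 6 → ∀ P : Ideal (𝓞 Qb), P.IsPrime → (ℓ : 𝓞 Qb) ∈ P →
        ∀ g : GK j, ((∀ x : 𝓞 Qb, (g : GQ) • x - x ∈ P) → Φ g = 1) ∧
        ((∀ x : 𝓞 Qb, (g : GQ) • x - x ^ Ideal.absNorm (below j P) ∈ P) →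
          ∃ α : 𝓞 K, (3 : 𝓞 K) ∣ α - 1 ∧ below j P = Ideal.span {α} ∧ (Φ g : E) = ι α) :=
  attX (FROB H732.TOR) K ζ hζ hO E ι j h6 hw

end Vale.Agent.P022.H119.CM
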