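import Vale.Agent.P022.H420.CM2

/-!
P022, explicit reciprocity for `K = ℚ(√-3)`: block [RED], reduction of the `2^∞`-torsion of
`y² = x³ + b` modulo a prime of the ring of integers is an injective homomorphism.
-/

open WeierstrassCurve WeierstrassCurve.Affine NumberField Polynomial

noncomputable section

namespace Vale.Agent.P022.H119.CM

open Vale.Agent.P022.CM

/-- a root of `X⁴ - 4 c X³ - 8 b X - 4 b c` with `c` integral is integral -/
theorem int_root {L : Type*} [Field L] (b : ℤ) (x c : L) (hc : IsIntegral ℤ c)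
    (h : x ^ 4 - 8 * b * x = 4 * (x ^ 3 + b) * c) : IsIntegral ℤ x := by
  refine isIntegral_trans (R := ℤ) (A := 𝓞 L) x ?_
  set c' : 𝓞 L := ⟨c, hc⟩ with hc'
  have hcc : algebraMap (𝓞 L) L c' = c := rfl
  obtain ⟨a₁, h₁⟩ : ∃ a : 𝓞 L, algebraMap (𝓞 L) L a = -(4 * c) := ⟨-(4 * c'), by
    simp only [map_neg, map_mul, map_ofNat, hcc]⟩
  obtain ⟨a₂, h₂⟩ : ∃ a : 𝓞 L, algebraMap (𝓞 L) L a = -(8 * (b : L)) := ⟨-(8 * (b : 𝓞 L)), by
    simp only [map_neg, map_mul, map_ofNat, map_intCast]⟩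
  obtain ⟨a₃, h₃⟩ : ∃ a : 𝓞 L, algebraMap (𝓞 L) L a = -(4 * (b : L) * c) :=
    ⟨-(4 * (b : 𝓞 L) * c'), by simp only [map_neg, map_mul, map_ofNat, map_intCast, hcc]⟩
  refine ⟨X ^ 4 + (C a₁ * X ^ 3 + C a₂ * X + C a₃), ?_, ?_⟩
  · refine monic_X_pow_add (n := 4) ?_
    refine lt_of_le_of_lt (b := (3 : WithBot ℕ)) ?_ (by norm_num)
    compute_degree
  · simp only [eval₂_add, eval₂_mul, eval₂_pow, eval₂_X, eval₂_C, h₁, h₂, h₃]
    linear_combination h

/-- the `2^∞`-torsion points have integral coordinates -/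
theorem int_tors {L : Type*} [Field L] [DecidableEq L] (b : ℤ) (h6 : (6 : L) * (b : L) ≠ 0)
    (n : ℕ) : ∀ (x y : L) (h : (Wc (b : L)).Nonsingular x y),
      (2 ^ n : ℕ) • (Point.some x y h : Pt (b : L)) = 0 → IsIntegral ℤ x ∧ IsIntegral ℤ y := by
  induction n with
  | zero =>
    intro x y h h0
    rw [pow_zero, one_smul] at h0
    exact absurd h0 (Point.some_ne_zero h)
  | succ n ih =>
    intro x y h h0
    have he := eqn.1 h.1
    have h2 : (2 : L) ≠ 0 := by
      intro h2; apply h6; linear_combination 3 * (b : L) * h2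
    have hb : IsIntegral ℤ (b : L) := by
      simpa using (isIntegral_algebraMap (R := ℤ) (A := L) (x := b))
    have key : IsIntegral ℤ x := by
      by_cases hy : 2 * y = 0
      · have hy0 : y = 0 := by
          rcases mul_eq_zero.1 hy with h' | h'
          · exact absurd h' h2
          · exact h'
        refine IsIntegral.of_pow (n := 3) (by norm_num) ?_
        have : x ^ 3 = -(b : L) := by
          rw [hy0] at he
          linear_combination -he
        rw [this]
        exact hb.neg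
      · obtain ⟨s, hs⟩ : ∃ s, s * (2 * y) = 3 * x ^ 2 :=
          ⟨3 * x ^ 2 / (2 * y), div_mul_cancel₀ _ hy⟩
        have hadd := add_tan h hy hs (nons_tan h hy hs) rfl rfl
        have h1 : (2 ^ n : ℕ) • (Point.some _ _ (nons_tan h hy hs) : Pt (b : L)) = 0 := by
          rw [← hadd, ← two_nsmul, ← mul_nsmul', ← pow_succ]
          exact h0
        obtain ⟨hi, -⟩ := ih _ _ _ h1
        refine int_root b x _ hi ?_
        have hs2 : (s * (2 * y)) ^ 2 = (3 * x ^ 2) ^ 2 := by rw [hs]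
        linear_combination (-1) * hs2 + 4 * s ^ 2 * he
    refine ⟨key, IsIntegral.of_pow (n := 2) (by norm_num) ?_⟩
    rw [he]
    exact (key.pow 3).add hb

section
variable {L F : Type*} [Field L] [Field F] (π : 𝓞 L →+* F) (b : ℤ)

theorem nons_red (h6 : (6 : F) * (b : F) ≠ 0) {x y : 𝓞 L}
    (h : (y : L) ^ 2 = (x : L) ^ 3 + b) : (Wc (b : F)).Nonsingular (π x) (π y) := by
  refine nons h6 ?_
  have h' : y ^ 2 = x ^ 3 + (b : 𝓞 L) := by
    apply RingOfIntegers.ext
    push_cast
    exact h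
  have := congrArg π h'
  simpa using this

open Classical in
/-- the reduction map -/
def Rd (h6 : (6 : F) * (b : F) ≠ 0) : Pt (b : L) → Pt (b : F)
  | 0 => 0
  | .some x y h => if hxy : IsIntegral ℤ x ∧ IsIntegral ℤ y then
      .some (π ⟨x, hxy.1⟩) (π ⟨y, hxy.2⟩) (nons_red π b h6 (eqn.1 h.1)) else 0

theorem Rd_zero (h6 : (6 : F) * (b : F) ≠ 0) : Rd π b h6 (0 : Pt (b : L)) = 0 := rfl

theorem Rd_some (h6 : (6 : F) * (b : F) ≠ 0) (x y : 𝓞 L)
    (h : (Wc (b : L)).Nonsingular (x : L) (y : L)) (h' : (Wc (b : F)).Nonsingular (π x) (π y)) :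
    Rd π b h6 (.some (x : L) (y : L) h) = .some (π x) (π y) h' := by
  have hxy : IsIntegral ℤ (x : L) ∧ IsIntegral ℤ (y : L) := ⟨x.2, y.2⟩
  exact dif_pos hxy

end

theorem RED : REDStmt := by
  intro L F _ _ _ _ π b h6 h6F
  have h2F : (2 : F) ≠ 0 := by
    intro h2; apply h6F; linear_combination 3 * (b : F) * h2
  have hbF : (b : F) ≠ 0 := right_ne_zero_of_mul h6F
  have h3F : (3 : F) ≠ 0 := by
    intro h3; apply h6F; linear_combination 2 * (b : F) * h3
  -- zero ordinates: not both `y` and `x` vanish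
  have hyne : ∀ x y s : F, y ^ 2 = x ^ 3 + (b : F) → s * (2 * y) = 3 * x ^ 2 → 2 * y ≠ 0 := by
    intro x y s he hs hy
    rw [hy, mul_zero] at hs
    have hx : x = 0 := by
      have : x ^ 2 = 0 := by
        rcases mul_eq_zero.1 hs.symm with h' | h'
        · exact absurd h' h3F
        · exact h'
      simpa using this
    have hy0 : y = 0 := by
      rcases mul_eq_zero.1 hy with h' | h'
      · exact absurd h' h2F
      · exact h'
    apply hbF
    rw [hx, hy0] at he
    linear_combination -he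
  refine ⟨int_tors b h6, Rd π b h6F, Rd_zero π b h6F, Rd_some π b h6F, ?_⟩
  -- the points are `0` or integral
  have rep : ∀ (n : ℕ) (P : Pt (b : L)), (2 ^ n : ℕ) • P = 0 → P = 0 ∨
      ∃ (x y : 𝓞 L) (h : (Wc (b : L)).Nonsingular (x : L) (y : L)), P = .some (x : L) (y : L) h := by
    intro n P hP
    rcases P with _ | ⟨x, y, h⟩
    · left; rfl
    · right
      obtain ⟨hx, hy⟩ := int_tors b h6 n x y h hP
      exact ⟨⟨x, hx⟩, ⟨y, hy⟩, h, rfl⟩
  have hadd : ∀ (n : ℕ) (P Q : Pt (b : L)), (2 ^ n : ℕ) • P = 0 → (2 ^ n : ℕ) • Q = 0 →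
      Rd π b h6F (P + Q) = Rd π b h6F P + Rd π b h6F Q := by
    intro n P Q hP hQ
    have hPQ : (2 ^ n : ℕ) • (P + Q) = 0 := by rw [smul_add, hP, hQ, add_zero]
    rcases rep n P hP with rfl | ⟨x₁, y₁, h₁, rfl⟩
    · rw [zero_add, Rd_zero, zero_add]
    rcases rep n Q hQ with rfl | ⟨x₂, y₂, h₂, rfl⟩
    · rw [add_zero, Rd_zero, add_zero]
    have e₁ := eqn.1 h₁.1
    have e₂ := eqn.1 h₂.1
    have r₁ := nons_red π b h6F e₁
    have r₂ := nons_red π b h6F e₂
    rcases add_cases h₁ h₂ with hx | ⟨hx, hy⟩ | ⟨hx, hy, hy2⟩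
    · -- the chord
      have hd : (x₁ : L) - x₂ ≠ 0 := sub_ne_zero.2 hx
      obtain ⟨s, hs⟩ : ∃ s : L, s * ((x₁ : L) - x₂) = y₁ - y₂ :=
        ⟨((y₁ : L) - y₂) / (x₁ - x₂), by field_simp⟩
      have hc := add_chord h₁ h₂ hx hs (nons_chord h₁ h₂ hx hs) rfl rfl
      rw [hc] at hPQ
      obtain ⟨hi, hj⟩ := int_tors b h6 n _ _ _ hPQ
      have hsi : IsIntegral ℤ s := by
        refine IsIntegral.of_pow (n := 2) (by norm_num) ?_
        have : s ^ 2 = (s ^ 2 - x₁ - x₂) + x₁ + x₂ := by ring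
        rw [this]
        exact (hi.add x₁.2).add x₂.2
      obtain ⟨s', rfl⟩ : ∃ s' : 𝓞 L, (s' : L) = s := ⟨⟨s, hsi⟩, rfl⟩
      have hs' : s' * (x₁ - x₂) = y₁ - y₂ := by
        apply RingOfIntegers.ext
        push_cast
        exact hs
      have hsF : π s' * (π x₁ - π x₂) = π y₁ - π y₂ := by
        rw [← map_sub, ← map_sub, ← map_mul, hs']
      have r₃ : (Wc (b : F)).Nonsingular (π (s' ^ 2 - x₁ - x₂))
          (π (-(y₁ + s' * (s' ^ 2 - x₁ - x₂ - x₁)))) := by
        refine nons_red π b h6F ?_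
        have := eqn.1 (nons_chord h₁ h₂ hx hs).1
        push_cast
        exact this
      have hc' : (Point.some (x₁ : L) (y₁ : L) h₁ : Pt (b : L)) + Point.some (x₂ : L) (y₂ : L) h₂ =
          Point.some ((s' ^ 2 - x₁ - x₂ : 𝓞 L) : L)
            ((-(y₁ + s' * (s' ^ 2 - x₁ - x₂ - x₁)) : 𝓞 L) : L) (by
              push_cast
              exact nons_chord h₁ h₂ hx hs) := by
        rw [hc, Point.some.injEq]
        exact ⟨by push_cast; rfl, by push_cast; rfl⟩
      rw [hc', Rd_some π b h6F _ _ _ r₃, Rd_some π b h6F _ _ _ r₁, Rd_some π b h6F _ _ _ r₂]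
      symm
      by_cases hxF : π x₁ = π x₂
      · -- the chord becomes a tangent
        have hyF : π y₁ = π y₂ := by
          rw [hxF, sub_self, mul_zero] at hsF
          linear_combination -hsF
        have ht : s' * (y₁ + y₂) = x₁ ^ 2 + x₁ * x₂ + x₂ ^ 2 := by
          apply RingOfIntegers.ext
          push_cast
          apply mul_right_cancel₀ hd
          linear_combination ((y₁ : L) + y₂) * hs + e₁ - e₂
        have htF : π s' * (2 * π y₁) = 3 * π x₁ ^ 2 := by
          have := congrArg π ht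
          simp only [map_mul, map_add, map_pow] at this
          rw [← hxF, ← hyF] at this
          linear_combination this
        have hy0 := hyne _ _ _ (eqn.1 r₁.1) htF
        have e : (Point.some (π x₂) (π y₂) r₂ : Pt (b : F)) = Point.some (π x₁) (π y₁) r₁ := by
          rw [Point.some.injEq]
          exact ⟨hxF.symm, hyF.symm⟩
        rw [e]
        refine add_tan (s := π s') r₁ hy0 htF r₃ ?_ ?_
        · simp only [map_sub, map_pow]
          rw [← hxF]; ring
        · simp only [map_neg, map_sub, map_add, map_mul, map_pow]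
      · refine add_chord (s := π s') r₁ r₂ hxF hsF r₃ ?_ ?_
        · simp only [map_sub, map_pow]
        · simp only [map_neg, map_sub, map_add, map_mul, map_pow]
    · -- opposite points
      rw [add_opp h₁ h₂ hx hy, Rd_zero, Rd_some π b h6F _ _ _ r₁, Rd_some π b h6F _ _ _ r₂]
      symm
      refine add_opp r₁ r₂ ?_ ?_
      · rw [show x₁ = x₂ from RingOfIntegers.ext hx]
      · rw [show y₁ = -y₂ from RingOfIntegers.ext (by push_cast; exact hy), map_neg]
    · -- the tangent
      have ex : x₁ = x₂ := RingOfIntegers.ext hx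
      have ey : y₁ = y₂ := RingOfIntegers.ext hy
      subst ex
      subst ey
      obtain ⟨s, hs⟩ : ∃ s : L, s * (2 * y₁) = 3 * x₁ ^ 2 := ⟨3 * (x₁ : L) ^ 2 / (2 * y₁), by
        rw [div_mul_cancel₀ _ hy2]⟩
      have hc := add_tan h₁ hy2 hs (nons_tan h₁ hy2 hs) rfl rfl
      rw [hc] at hPQ
      obtain ⟨hi, hj⟩ := int_tors b h6 n _ _ _ hPQ
      have hsi : IsIntegral ℤ s := by
        refine IsIntegral.of_pow (n := 2) (by norm_num) ?_
        have : s ^ 2 = (s ^ 2 - 2 * x₁) + x₁ + x₁ := by ring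
        rw [this]
        exact (hi.add x₁.2).add x₁.2
      obtain ⟨s', rfl⟩ : ∃ s' : 𝓞 L, (s' : L) = s := ⟨⟨s, hsi⟩, rfl⟩
      have hs' : s' * (2 * y₁) = 3 * x₁ ^ 2 := by
        apply RingOfIntegers.ext
        push_cast
        exact hs
      have hsF : π s' * (2 * π y₁) = 3 * π x₁ ^ 2 := by
        have := congrArg π hs'
        simpa only [map_mul, map_pow, map_ofNat] using this
      have r₃ : (Wc (b : F)).Nonsingular (π (s' ^ 2 - 2 * x₁))
          (π (-(y₁ + s' * (s' ^ 2 - 2 * x₁ - x₁)))) := by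
        refine nons_red π b h6F ?_
        have := eqn.1 (nons_tan h₁ hy2 hs).1
        push_cast
        exact this
      have hc' : (Point.some (x₁ : L) (y₁ : L) h₁ : Pt (b : L)) + Point.some (x₁ : L) (y₁ : L) h₂ =
          Point.some ((s' ^ 2 - 2 * x₁ : 𝓞 L) : L)
            ((-(y₁ + s' * (s' ^ 2 - 2 * x₁ - x₁)) : 𝓞 L) : L) (by
              push_cast
              exact nons_tan h₁ hy2 hs) := by
        rw [hc, Point.some.injEq]
        exact ⟨by push_cast; rfl, by push_cast; rfl⟩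
      rw [hc', Rd_some π b h6F _ _ _ r₃, Rd_some π b h6F _ _ _ r₁]
      symm
      have hy0 := hyne _ _ _ (eqn.1 r₁.1) hsF
      refine add_tan (s := π s') r₁ hy0 hsF r₃ ?_ ?_
      · simp only [map_sub, map_pow, map_mul, map_ofNat]
      · simp only [map_neg, map_sub, map_add, map_mul, map_pow, map_ofNat]
  refine ⟨hadd, ?_⟩
  intro n P Q hP hQ h
  have hQ' : (2 ^ n : ℕ) • (-Q) = 0 := by rw [smul_neg, hQ, neg_zero]
  have hPQ : (2 ^ n : ℕ) • (P - Q) = 0 := by rw [sub_eq_add_neg, smul_add, hP, hQ', add_zero]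
  have h0 : Rd π b h6F (P - Q) = 0 := by
    have e1 := hadd n (P - Q) Q hPQ hQ
    rw [sub_add_cancel, h] at e1
    exact (left_eq_add.1 (by rw [add_comm]; exact e1))
  rcases rep n _ hPQ with h' | ⟨x, y, h₁, h'⟩
  · exact sub_eq_zero.1 h'
  · exfalso
    rw [h', Rd_some π b h6F _ _ _ (nons_red π b h6F (eqn.1 h₁.1))] at h0
    exact Point.some_ne_zero _ h0

end Vale.Agent.P022.H119.CM

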